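import Vale.Agent.P348S42.Main

namespace Vale.Agent.Results.P348.AAllSpinOne

open Filter Topology Vale.Agent.P348S42
open Vale.Agent.P361S42 (IsSpin Irred)

/-- The spin-one matrices, given only by the commutation relations and the value of the Casimir
operator, exist, are irreducible and are unique up to a change of basis; the Heisenberg ring built
from any of them has a gap, uniformly in the even length. -/
theorem result :
    (∃ S : Fin 3 → Matrix (Fin 3) (Fin 3) ℂ, IsSpin 1 S ∧ ∀ a, (S a).IsHermitian) ∧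
    ∀ S : Fin 3 → Matrix (Fin 3) (Fin 3) ℂ, IsSpin 1 S → Irred S ∧
      (∀ T : Fin 3 → Matrix (Fin 3) (Fin 3) ℂ, IsSpin 1 T →
        ∃ U, IsUnit U ∧ ∀ a, S a * U = U * T a) ∧
      ∃ E₀ E₁ : ℕ → ℝ,
        (∀ (L : ℕ) [NeZero L], Even L → 4 ≤ L → (∀ μ, IsEig S L μ → μ.im = 0) ∧
          IsLeast {E : ℝ | IsEig S L E} (E₀ L) ∧
          IsLeast {E : ℝ | IsEig S L E ∧ E₀ L < E} (E₁ L)) ∧
        (∃ γ : ℝ, 0 < γ ∧ ∀ L : ℕ, Even L → 4 ≤ L → γ ≤ E₁ L - E₀ L) ∧
        0 < liminf (fun L : ℕ => ((E₁ L - E₀ L : ℝ) : EReal)) (atTop ⊓ 𝓟 {L | Even L}) :=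
  main

end Vale.Agent.Results.P348.AAllSpinOne
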